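import Vale.Agent.P092.H701.Chain

/-!
P092 (helper701): the chains of `SL_n(k)` and of finite products.
-/

set_option linter.all false

open Matrix Set Topology

namespace Vale.Agent.P092.H701

variable {k : Type*} [NontriviallyNormedField k]

/-- diagonal entries of the fundamental coweight `j` -/
def dg (n : ℕ) (w : k) (j i : Fin (n + 1)) : k :=
  (if i = j then w ^ (n - (j : ℕ)) else 1) * (if j < i then w⁻¹ else 1)

theorem prod_dg (n : ℕ) {w : k} (hw : w ≠ 0) (j : Fin (n + 1)) : ∏ i, dg n w j i = 1 := by
  unfold dg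
  rw [Finset.prod_mul_distrib, Finset.prod_ite_eq', Finset.prod_ite, Finset.prod_const_one,
    Finset.prod_const, mul_one, if_pos (Finset.mem_univ _), Finset.filter_lt_eq_Ioi,
    Fin.card_Ioi, inv_pow, show n + 1 - 1 - (j : ℕ) = n - j by omega]
  exact mul_inv_cancel₀ (pow_ne_zero _ hw)

/-- the fundamental coweight -/
def tor (n : ℕ) {w : k} (hw : w ≠ 0) (j : Fin (n + 1)) : SpecialLinearGroup (Fin (n + 1)) k :=
  ⟨diagonal (dg n w j), by rw [det_diagonal, prod_dg n hw]⟩

theorem tor_mul_row (n : ℕ) {w : k} (hw : w ≠ 0) (j i : Fin (n + 1))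
    (x : SpecialLinearGroup (Fin (n + 1)) k) :
    (tor n hw j * x).1 i = dg n w j i • x.1 i := by
  funext a
  show (diagonal (dg n w j) * x.1) i a = _
  rw [diagonal_mul]
  rfl

theorem tor_pow_row (n : ℕ) {w : k} (hw : w ≠ 0) (j i : Fin (n + 1)) (N : ℕ)
    (x : SpecialLinearGroup (Fin (n + 1)) k) :
    (tor n hw j ^ N * x).1 i = (dg n w j i) ^ N • x.1 i := by
  induction N generalizing x with
  | zero => simp
  | succ N ih =>
    rw [pow_succ, mul_assoc, ih, tor_mul_row, smul_smul, pow_succ]

theorem tor_comm (n : ℕ) {w : k} (hw : w ≠ 0) (i j : Fin (n + 1)) :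
    Commute (tor n hw i) (tor n hw j) := by
  apply Subtype.ext
  show diagonal (dg n w i) * diagonal (dg n w j) = diagonal (dg n w j) * diagonal (dg n w i)
  rw [diagonal_mul_diagonal, diagonal_mul_diagonal]
  congr 1
  funext a
  exact mul_comm _ _

/-- elementary matrices -/
def elem {n : ℕ} {a b : Fin n} (h : a ≠ b) (t : k) : SpecialLinearGroup (Fin n) k :=
  ⟨transvection a b t, det_transvection_of_ne a b h t⟩

theorem continuous_elem {n : ℕ} {a b : Fin n} (h : a ≠ b) :
    Continuous (elem h : k → SpecialLinearGroup (Fin n) k) := by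
  apply Continuous.subtype_mk
  apply continuous_matrix
  intro x y
  simp only [transvection, Matrix.add_apply, Matrix.single_apply]
  split_ifs
  · fun_prop
  · fun_prop

theorem elem_row_same {n : ℕ} {a b : Fin n} (h : a ≠ b) (t : k)
    (x : SpecialLinearGroup (Fin n) k) : (elem h t * x).1 a = x.1 a + t • x.1 b := by
  funext c
  show (transvection a b t * x.1) a c = _
  rw [transvection_mul_apply_same]
  rfl

theorem elem_row_ne {n : ℕ} {a b : Fin n} (h : a ≠ b) (t : k) {c : Fin n} (hc : c ≠ a)
    (x : SpecialLinearGroup (Fin n) k) : (elem h t * x).1 c = x.1 c := by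
  funext d
  show (transvection a b t * x.1) c d = _
  rw [transvection_mul_apply_of_ne _ _ _ _ hc]

theorem tor_elem (n : ℕ) {w : k} (hw : w ≠ 0) (j : Fin (n + 1)) {a b : Fin (n + 1)} (h : a ≠ b)
    (hab : dg n w j a = dg n w j b) (t : k) : Commute (tor n hw j) (elem h t) := by
  apply Subtype.ext
  show diagonal (dg n w j) * transvection a b t = transvection a b t * diagonal (dg n w j)
  ext x y
  rw [diagonal_mul, mul_diagonal]
  simp only [transvection, Matrix.add_apply, Matrix.single_apply, Matrix.one_apply]
  by_cases hxy : x = y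
  · subst hxy; ring
  · rw [if_neg hxy, zero_add]
    by_cases hh : a = x ∧ b = y
    · obtain ⟨rfl, rfl⟩ := hh
      simp only [and_self, if_true]
      rw [hab, mul_comm]
    · rw [if_neg hh]; ring

theorem row_pos {n : ℕ} (x : SpecialLinearGroup (Fin n) k) (a : Fin n) : 0 < ‖x.1 a‖ := by
  rw [norm_pos_iff]
  intro h
  have : x.1.det = 0 := det_eq_zero_of_row_eq_zero a (fun j => congrFun h j)
  rw [x.2] at this
  exact one_ne_zero this

theorem continuous_row {n : ℕ} (a : Fin n) :
    Continuous fun x : SpecialLinearGroup (Fin n) k => x.1 a := by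
  have h : Continuous fun x : SpecialLinearGroup (Fin n) k => x.1 := continuous_subtype_val
  exact (continuous_apply a).comp h

/-- the row pair `(a, b)` of `SL_n(k)` -/
def slRow {n : ℕ} {a b : Fin n} (h : a ≠ b) :
    RowPair (SpecialLinearGroup (Fin n) k) k (Fin n → k) where
  ρ₁ x := x.1 a
  ρ₂ x := x.1 b
  cont₁ := continuous_row a
  cont₂ := continuous_row b
  ne x := lt_max_of_lt_left (row_pos x a)
  up := elem h
  lo := elem h.symm
  cont_up := continuous_elem h
  cont_lo := continuous_elem h.symm
  up₁ t x := elem_row_same h t x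
  up₂ t x := elem_row_ne h t h.symm x
  lo₁ t x := elem_row_ne h.symm t h x
  lo₂ t x := elem_row_same h.symm t x

theorem dg_self (n : ℕ) (w : k) (j : Fin (n + 1)) : dg n w j j = w ^ (n - (j : ℕ)) := by
  simp [dg]

theorem dg_gt (n : ℕ) (w : k) {j i : Fin (n + 1)} (h : j < i) : dg n w j i = w⁻¹ := by
  simp [dg, h, ne_of_gt h]

/-- `SL_{n+1}(k)` has a chain of length `n`. -/
noncomputable def slChain (k : Type*) [NontriviallyNormedField k] [ProperSpace k] (n : ℕ)
    [MeasurableSpace (SpecialLinearGroup (Fin (n + 1)) k)]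
    [OpensMeasurableSpace (SpecialLinearGroup (Fin (n + 1)) k)] :
    HChain (SpecialLinearGroup (Fin (n + 1)) k) n :=
  let w : k := (NormedField.exists_one_lt_norm k).choose
  have hw1 : 1 < ‖w‖ := (NormedField.exists_one_lt_norm k).choose_spec
  have hw : w ≠ 0 := norm_pos_iff.mp (lt_trans one_pos hw1)
  { b := fun j N => tor n hw j.castSucc ^ N
    K := fun j => (slRow (k := k) (Fin.castSucc_lt_succ (i := j)).ne).K
    compact := fun j => RowPair.isCompact_K _
    comm_b := fun i j _ N M => (tor_comm n hw i.castSucc j.castSucc).pow_pow N M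
    comm_K := by
      intro i j hij N x hx
      have h1 : i.castSucc < j.castSucc := hij
      have h2 : i.castSucc < j.succ := h1.trans (Fin.castSucc_lt_succ (i := j))
      have e : dg n w i.castSucc j.castSucc = dg n w i.castSucc j.succ := by
        rw [dg_gt n w h1, dg_gt n w h2]
      have h3 : (j.castSucc : Fin (n + 1)) ≠ j.succ := (Fin.castSucc_lt_succ (i := j)).ne
      rcases hx with ⟨t, -, rfl⟩ | ⟨t, -, rfl⟩
      · exact (tor_elem n hw i.castSucc h3 e t).pow_left N
      · exact (tor_elem n hw i.castSucc h3.symm e.symm t).pow_left N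
    pp := by
      intro j p
      refine RowPair.pp (slRow (k := k) (Fin.castSucc_lt_succ (i := j)).ne)
        (fun N => tor n hw j.castSucc ^ N)
        (fun N => (dg n w j.castSucc j.castSucc) ^ N) (fun N => (dg n w j.castSucc j.succ) ^ N)
        (fun N x => tor_pow_row n hw _ _ N x) (fun N x => tor_pow_row n hw _ _ N x) ?_ ?_ p
      · intro N
        rw [dg_self]
        exact pow_ne_zero _ (pow_ne_zero _ hw)
      · intro C
        obtain ⟨N₀, hN₀⟩ := pow_unbounded_of_one_lt C hw1
        refine ⟨N₀, fun N hN => ?_⟩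
        rw [dg_self, dg_gt n w (Fin.castSucc_lt_succ (i := j)), norm_pow, norm_pow, norm_pow,
          norm_inv, Fin.val_castSucc]
        have h1 : C ≤ ‖w‖ ^ N := hN₀.le.trans (pow_le_pow_right₀ hw1.le hN)
        have h2 : ‖w‖⁻¹ ^ N ≤ 1 := pow_le_one₀ (by positivity) (inv_le_one_of_one_le₀ hw1.le)
        have h3 : (‖w‖ ^ N) ≤ (‖w‖ ^ (n - (j : ℕ))) ^ N := by
          apply pow_le_pow_left₀ (by positivity)
          exact le_self_pow₀ hw1.le (by have := j.2; omega)
        have h4 : (0 : ℝ) ≤ ‖w‖⁻¹ ^ N := by positivity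
        have h5 : (0 : ℝ) ≤ ‖w‖ ^ N := by positivity
        calc C * ‖w‖⁻¹ ^ N ≤ ‖w‖ ^ N * ‖w‖⁻¹ ^ N := mul_le_mul_of_nonneg_right h1 h4
          _ ≤ ‖w‖ ^ N * 1 := mul_le_mul_of_nonneg_left h2 h5
          _ ≤ _ := by rw [mul_one]; exact h3 }

section prod

variable {H H' : Type*} [Group H] [TopologicalSpace H] [MeasurableSpace H] [Group H']
  [TopologicalSpace H'] [MeasurableSpace H'] {r r' : ℕ}

/-- Chains of products. -/
def HChain.prod (C : HChain H r) (C' : HChain H' r') : HChain (H × H') (r + r') where
  b := Fin.addCases (fun i N => (C.b i N, 1)) (fun i N => (1, C'.b i N))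
  K := Fin.addCases (fun i => C.K i ×ˢ {1}) (fun i => {1} ×ˢ C'.K i)
  compact := by
    intro j
    induction j using Fin.addCases with
    | left i => simpa using (C.compact i).prod isCompact_singleton
    | right i => simpa using isCompact_singleton.prod (C'.compact i)
  comm_b := by
    intro i j hij N M
    induction i using Fin.addCases with
    | left i =>
      induction j using Fin.addCases with
      | left j =>
        have h : i < j := by rw [Fin.lt_def] at hij ⊢; simpa using hij
        simp only [Fin.addCases_left, Prod.mk_mul_mk, mul_one, C.comm_b i j h N M]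
      | right j => simp
    | right i =>
      induction j using Fin.addCases with
      | left j => simp
      | right j =>
        have h : i < j := by rw [Fin.lt_def] at hij ⊢; simpa using hij
        simp only [Fin.addCases_right, Prod.mk_mul_mk, mul_one, C'.comm_b i j h N M]
  comm_K := by
    intro i j hij N x hx
    induction i using Fin.addCases with
    | left i =>
      induction j using Fin.addCases with
      | left j =>
        have h : i < j := by rw [Fin.lt_def] at hij ⊢; simpa using hij
        rw [Fin.addCases_left] at hx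
        rw [Fin.addCases_left]
        ext
        · exact C.comm_K i j h N x.1 hx.1
        · simp
      | right j =>
        rw [Fin.addCases_right] at hx
        rw [Fin.addCases_left]
        have h1 : x.1 = 1 := hx.1
        ext
        · simp [h1]
        · simp
    | right i =>
      induction j using Fin.addCases with
      | left j =>
        exfalso
        have h1 : r + (i : ℕ) < (j : ℕ) := by simpa [Fin.lt_def] using hij
        have := j.2
        omega
      | right j =>
        have h : i < j := by rw [Fin.lt_def] at hij ⊢; simpa using hij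
        rw [Fin.addCases_right] at hx
        rw [Fin.addCases_right]
        ext
        · simp
        · exact C'.comm_K i j h N x.2 hx.2
  pp := by
    intro j p
    induction j using Fin.addCases with
    | left i =>
      obtain ⟨N₀, h⟩ := C.pp i p
      refine ⟨N₀, fun N hN => ?_⟩
      obtain ⟨κ, κ', Bm, Bp, h1, h2, h3, h4, h5, h6, h7⟩ := h N hN
      refine ⟨fun l => (κ l, 1), fun l => (κ' l, 1), fun l => Prod.fst ⁻¹' Bm l,
        fun l => Prod.fst ⁻¹' Bp l, ?_, ?_, ?_, ?_, ?_, ?_, ?_⟩
      · intro l; rw [Fin.addCases_left]; exact ⟨h1 l, rfl⟩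
      · intro l; rw [Fin.addCases_left]; exact ⟨h2 l, rfl⟩
      · exact fun l => measurable_fst (h3 l)
      · exact fun l => measurable_fst (h4 l)
      · exact fun l l' hl => (h5 l l' hl).preimage _
      · exact fun l l' hl => (h6 l l' hl).preimage _
      · intro l x hx
        rw [Fin.addCases_left]
        exact h7 l x.1 hx
    | right i =>
      obtain ⟨N₀, h⟩ := C'.pp i p
      refine ⟨N₀, fun N hN => ?_⟩
      obtain ⟨κ, κ', Bm, Bp, h1, h2, h3, h4, h5, h6, h7⟩ := h N hN
      refine ⟨fun l => (1, κ l), fun l => (1, κ' l), fun l => Prod.snd ⁻¹' Bm l,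
        fun l => Prod.snd ⁻¹' Bp l, ?_, ?_, ?_, ?_, ?_, ?_, ?_⟩
      · intro l; rw [Fin.addCases_right]; exact ⟨rfl, h1 l⟩
      · intro l; rw [Fin.addCases_right]; exact ⟨rfl, h2 l⟩
      · exact fun l => measurable_snd (h3 l)
      · exact fun l => measurable_snd (h4 l)
      · exact fun l l' hl => (h5 l l' hl).preimage _
      · exact fun l l' hl => (h6 l l' hl).preimage _
      · intro l x hx
        rw [Fin.addCases_right]
        exact h7 l x.2 hx

end prod

end Vale.Agent.P092.H701
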