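import Mathlib

/-!
P092 (helper701): chains of commuting elements with ping-pong families.

`HChain H r` is the only input about the group `H` (the group containing the lattice `Λ`)
needed in the rank theorem.  Instances: `SL_n(k)` (length `n - 1`) for every locally compact
nontrivially normed field `k`, and finite products.
-/

set_option linter.all false

open Set Topology

namespace Vale.Agent.P092.H701

/-- A chain of length `r` of commuting elements with ping-pong families. -/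
structure HChain (H : Type*) [Group H] [TopologicalSpace H] [MeasurableSpace H] (r : ℕ) where
  b : Fin r → ℕ → H
  K : Fin r → Set H
  compact : ∀ j, IsCompact (K j)
  comm_b : ∀ i j, i < j → ∀ N M, b i N * b j M = b j M * b i N
  comm_K : ∀ i j, i < j → ∀ N, ∀ x ∈ K j, b i N * x = x * b i N
  pp : ∀ (j : Fin r) (p : ℕ), ∃ N₀, ∀ N, N₀ ≤ N →
    ∃ (κ κ' : Fin p → H) (Bm Bp : Fin p → Set H),
      (∀ l, κ l ∈ K j) ∧ (∀ l, κ' l ∈ K j) ∧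
      (∀ l, MeasurableSet (Bm l)) ∧ (∀ l, MeasurableSet (Bp l)) ∧
      (∀ l l', l ≠ l' → Disjoint (Bm l) (Bm l')) ∧
      (∀ l l', l ≠ l' → Disjoint (Bp l) (Bp l')) ∧
      ∀ l x, x ∉ Bm l → κ l * b j N * κ' l * x ∈ Bp l

/-- Distinct points of the unit ball with a lower bound for the distances. -/
theorem exists_pts (k : Type*) [NontriviallyNormedField k] (p : ℕ) :
    ∃ (t : Fin p → k) (η : ℝ), 0 < η ∧ η ≤ 1 ∧ (∀ l, ‖t l‖ ≤ 1) ∧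
      ∀ l l', l ≠ l' → η ≤ ‖t l - t l'‖ := by
  obtain ⟨w, hw⟩ := NormedField.exists_one_lt_norm k
  set s : ℝ := ‖w‖⁻¹ with hs
  have hw0 : 0 < ‖w‖ := lt_trans one_pos hw
  have hs0 : 0 < s := inv_pos.mpr hw0
  have hs1 : s < 1 := inv_lt_one_of_one_lt₀ hw
  have hn : ∀ l : ℕ, ‖(w⁻¹) ^ l‖ = s ^ l := fun l => by rw [norm_pow, norm_inv]
  refine ⟨fun l => (w⁻¹) ^ (l : ℕ), s ^ p * (1 - s), ?_, ?_, ?_, ?_⟩
  · exact mul_pos (pow_pos hs0 _) (by linarith)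
  · have h1 : s ^ p ≤ 1 := pow_le_one₀ hs0.le hs1.le
    have h2 : 0 ≤ 1 - s := by linarith
    calc s ^ p * (1 - s) ≤ 1 * (1 - s) := mul_le_mul_of_nonneg_right h1 h2
      _ ≤ 1 := by linarith
  · intro l
    rw [hn]
    exact pow_le_one₀ hs0.le hs1.le
  · have key : ∀ l l' : ℕ, l < l' → l < p → s ^ p * (1 - s) ≤ ‖(w⁻¹) ^ l - (w⁻¹) ^ l'‖ := by
      intro l l' hl hp
      have h1 : ‖(w⁻¹) ^ l‖ - ‖(w⁻¹) ^ l'‖ ≤ ‖(w⁻¹) ^ l - (w⁻¹) ^ l'‖ := norm_sub_norm_le _ _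
      rw [hn, hn] at h1
      have h2 : s ^ l' ≤ s ^ (l + 1) := pow_le_pow_of_le_one hs0.le hs1.le hl
      have h3 : s ^ p ≤ s ^ l := pow_le_pow_of_le_one hs0.le hs1.le hp.le
      have h4 : s ^ p * (1 - s) ≤ s ^ l * (1 - s) :=
        mul_le_mul_of_nonneg_right h3 (by linarith)
      calc s ^ p * (1 - s) ≤ s ^ l * (1 - s) := h4
        _ = s ^ l - s ^ (l + 1) := by ring
        _ ≤ s ^ l - s ^ l' := by linarith
        _ ≤ _ := h1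
    intro l l' hne
    have hne' : (l : ℕ) ≠ (l' : ℕ) := fun h => hne (Fin.ext h)
    rcases lt_or_gt_of_ne hne' with h | h
    · exact key l l' h l.2
    · rw [norm_sub_rev]
      exact key l' l h l'.2

section row

variable {H : Type*} [Group H] [TopologicalSpace H]
variable {k : Type*} [NontriviallyNormedField k] {V : Type*} [NormedAddCommGroup V]
  [NormedSpace k V]

/-- Two rows of the elements of `H`, with the action of an `SL_2` on them. -/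
structure RowPair (H : Type*) [Group H] [TopologicalSpace H] (k : Type*)
    [NontriviallyNormedField k] (V : Type*) [NormedAddCommGroup V] [NormedSpace k V] where
  ρ₁ : H → V
  ρ₂ : H → V
  cont₁ : Continuous ρ₁
  cont₂ : Continuous ρ₂
  ne : ∀ x, 0 < max ‖ρ₁ x‖ ‖ρ₂ x‖
  up : k → H
  lo : k → H
  cont_up : Continuous up
  cont_lo : Continuous lo
  up₁ : ∀ t x, ρ₁ (up t * x) = ρ₁ x + t • ρ₂ x
  up₂ : ∀ t x, ρ₂ (up t * x) = ρ₂ x
  lo₁ : ∀ t x, ρ₁ (lo t * x) = ρ₁ x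
  lo₂ : ∀ t x, ρ₂ (lo t * x) = ρ₂ x + t • ρ₁ x

/-- the compact set of the ping-pong family -/
def RowPair.K (R : RowPair H k V) : Set H :=
  R.up '' Metric.closedBall 0 1 ∪ R.lo '' Metric.closedBall 0 1

theorem RowPair.isCompact_K [ProperSpace k] (R : RowPair H k V) : IsCompact R.K :=
  ((isCompact_closedBall 0 1).image R.cont_up).union ((isCompact_closedBall 0 1).image R.cont_lo)

/-- The ping-pong family of a row pair: `b` acts on the two rows by `α`, `β` with `|α| ≫ |β|`. -/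
theorem RowPair.pp [MeasurableSpace H] [OpensMeasurableSpace H] (R : RowPair H k V)
    (b : ℕ → H) (α β : ℕ → k)
    (h₁ : ∀ N x, R.ρ₁ (b N * x) = α N • R.ρ₁ x) (h₂ : ∀ N x, R.ρ₂ (b N * x) = β N • R.ρ₂ x)
    (h0 : ∀ N, α N ≠ 0) (hlim : ∀ C : ℝ, ∃ N₀, ∀ N, N₀ ≤ N → C * ‖β N‖ ≤ ‖α N‖) (p : ℕ) :
    ∃ N₀, ∀ N, N₀ ≤ N → ∃ (κ κ' : Fin p → H) (Bm Bp : Fin p → Set H),
      (∀ l, κ l ∈ R.K) ∧ (∀ l, κ' l ∈ R.K) ∧
      (∀ l, MeasurableSet (Bm l)) ∧ (∀ l, MeasurableSet (Bp l)) ∧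
      (∀ l l', l ≠ l' → Disjoint (Bm l) (Bm l')) ∧
      (∀ l l', l ≠ l' → Disjoint (Bp l) (Bp l')) ∧
      ∀ l x, x ∉ Bm l → κ l * b N * κ' l * x ∈ Bp l := by
  obtain ⟨t, η, hη, hη1, ht, hsep⟩ := exists_pts k p
  obtain ⟨N₀, hN₀⟩ := hlim (32 / η ^ 2)
  refine ⟨N₀, fun N hN => ?_⟩
  have hC := hN₀ N hN
  have hC' : ‖β N‖ ≤ η / 4 * (η / 8) * ‖α N‖ := by
    have h3 : (0 : ℝ) < η ^ 2 := by positivity
    have : η ^ 2 / 32 * (32 / η ^ 2 * ‖β N‖) ≤ η ^ 2 / 32 * ‖α N‖ :=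
      mul_le_mul_of_nonneg_left hC (by positivity)
    have h4 : η ^ 2 / 32 * (32 / η ^ 2 * ‖β N‖) = ‖β N‖ := by field_simp
    rw [h4] at this
    calc ‖β N‖ ≤ η ^ 2 / 32 * ‖α N‖ := this
      _ = η / 4 * (η / 8) * ‖α N‖ := by ring
  refine ⟨fun l => R.lo (t l), fun l => R.up (t l),
    fun l => {x | ‖R.ρ₁ x + t l • R.ρ₂ x‖ ≤ η / 8 * max ‖R.ρ₁ x‖ ‖R.ρ₂ x‖},
    fun l => {x | R.ρ₁ x ≠ 0 ∧ ‖R.ρ₂ x - t l • R.ρ₁ x‖ ≤ η / 4 * ‖R.ρ₁ x‖},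
    ?_, ?_, ?_, ?_, ?_, ?_, ?_⟩
  · intro l
    exact Or.inr ⟨t l, by simpa using ht l, rfl⟩
  · intro l
    exact Or.inl ⟨t l, by simpa using ht l, rfl⟩
  · intro l
    have c1 := R.cont₁
    have c2 := R.cont₂
    have c3 : Continuous fun x => ‖R.ρ₁ x + t l • R.ρ₂ x‖ := by fun_prop
    have c4 : Continuous fun x => η / 8 * max ‖R.ρ₁ x‖ ‖R.ρ₂ x‖ := by fun_prop
    exact (isClosed_le c3 c4).measurableSet
  · intro l
    have c1 := R.cont₁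
    have c2 := R.cont₂
    apply MeasurableSet.inter
    · exact (isOpen_ne.preimage c1).measurableSet
    · have c3 : Continuous fun x => ‖R.ρ₂ x - t l • R.ρ₁ x‖ := by fun_prop
      have c4 : Continuous fun x => η / 4 * ‖R.ρ₁ x‖ := by fun_prop
      exact (isClosed_le c3 c4).measurableSet
  · intro l l' hne
    rw [Set.disjoint_left]
    intro x hx hx'
    simp only [Set.mem_setOf_eq] at hx hx'
    set m := max ‖R.ρ₁ x‖ ‖R.ρ₂ x‖ with hm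
    have hm0 : 0 < m := R.ne x
    have h1 : (t l - t l') • R.ρ₂ x
        = (R.ρ₁ x + t l • R.ρ₂ x) - (R.ρ₁ x + t l' • R.ρ₂ x) := by
      rw [sub_smul]; abel
    have h2 : η * ‖R.ρ₂ x‖ ≤ η / 4 * m := by
      calc η * ‖R.ρ₂ x‖ ≤ ‖t l - t l'‖ * ‖R.ρ₂ x‖ :=
            mul_le_mul_of_nonneg_right (hsep l l' hne) (norm_nonneg _)
        _ = ‖(t l - t l') • R.ρ₂ x‖ := (norm_smul _ _).symm
        _ = ‖(R.ρ₁ x + t l • R.ρ₂ x) - (R.ρ₁ x + t l' • R.ρ₂ x)‖ := by rw [h1]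
        _ ≤ ‖R.ρ₁ x + t l • R.ρ₂ x‖ + ‖R.ρ₁ x + t l' • R.ρ₂ x‖ := norm_sub_le _ _
        _ ≤ η / 8 * m + η / 8 * m := add_le_add hx hx'
        _ = η / 4 * m := by ring
    have h3 : ‖R.ρ₂ x‖ ≤ m / 4 := by
      have : η * ‖R.ρ₂ x‖ ≤ η * (m / 4) := by linarith [h2]
      exact le_of_mul_le_mul_left this hη
    have h4 : ‖R.ρ₁ x‖ ≤ m / 8 + m / 4 := by
      have e1 : R.ρ₁ x = (R.ρ₁ x + t l • R.ρ₂ x) - t l • R.ρ₂ x := by abel
      calc ‖R.ρ₁ x‖ = ‖(R.ρ₁ x + t l • R.ρ₂ x) - t l • R.ρ₂ x‖ := by rw [← e1]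
        _ ≤ ‖R.ρ₁ x + t l • R.ρ₂ x‖ + ‖t l • R.ρ₂ x‖ := norm_sub_le _ _
        _ ≤ η / 8 * m + 1 * (m / 4) := by
            apply add_le_add hx
            rw [norm_smul]
            exact mul_le_mul (ht l) h3 (norm_nonneg _) zero_le_one
        _ ≤ m / 8 + m / 4 := by nlinarith
    have h5 : m ≤ m / 8 + m / 4 := max_le h4 (by linarith [h3])
    linarith
  · intro l l' hne
    rw [Set.disjoint_left]
    rintro x ⟨hx0, hx⟩ ⟨-, hx'⟩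
    have hpos : 0 < ‖R.ρ₁ x‖ := norm_pos_iff.mpr hx0
    have h1 : (t l - t l') • R.ρ₁ x
        = (R.ρ₂ x - t l' • R.ρ₁ x) - (R.ρ₂ x - t l • R.ρ₁ x) := by
      rw [sub_smul]; abel
    have h2 : η * ‖R.ρ₁ x‖ ≤ η / 2 * ‖R.ρ₁ x‖ := by
      calc η * ‖R.ρ₁ x‖ ≤ ‖t l - t l'‖ * ‖R.ρ₁ x‖ :=
            mul_le_mul_of_nonneg_right (hsep l l' hne) (norm_nonneg _)
        _ = ‖(t l - t l') • R.ρ₁ x‖ := (norm_smul _ _).symm
        _ = ‖(R.ρ₂ x - t l' • R.ρ₁ x) - (R.ρ₂ x - t l • R.ρ₁ x)‖ := by rw [h1]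
        _ ≤ ‖R.ρ₂ x - t l' • R.ρ₁ x‖ + ‖R.ρ₂ x - t l • R.ρ₁ x‖ := norm_sub_le _ _
        _ ≤ η / 4 * ‖R.ρ₁ x‖ + η / 4 * ‖R.ρ₁ x‖ := add_le_add hx' hx
        _ = η / 2 * ‖R.ρ₁ x‖ := by ring
    have : η * ‖R.ρ₁ x‖ > 0 := mul_pos hη hpos
    linarith
  · intro l x hx
    simp only [Set.mem_setOf_eq, not_le] at hx
    set m := max ‖R.ρ₁ x‖ ‖R.ρ₂ x‖ with hm
    have hm0 : 0 < m := R.ne x
    have e1 : R.ρ₁ (R.lo (t l) * b N * R.up (t l) * x)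
        = α N • (R.ρ₁ x + t l • R.ρ₂ x) := by
      rw [mul_assoc, mul_assoc, R.lo₁, h₁, R.up₁]
    have e2 : R.ρ₂ (R.lo (t l) * b N * R.up (t l) * x)
        = β N • R.ρ₂ x + t l • (α N • (R.ρ₁ x + t l • R.ρ₂ x)) := by
      rw [mul_assoc, mul_assoc, R.lo₂, h₂, h₁, R.up₁, R.up₂]
    have hz : 0 < ‖R.ρ₁ x + t l • R.ρ₂ x‖ := lt_of_le_of_lt (by positivity) hx
    have hα : 0 < ‖α N‖ := norm_pos_iff.mpr (h0 N)
    refine ⟨?_, ?_⟩
    · rw [e1]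
      exact smul_ne_zero (h0 N) (norm_pos_iff.mp hz)
    · rw [e1, e2, add_sub_cancel_right, norm_smul, norm_smul]
      calc ‖β N‖ * ‖R.ρ₂ x‖ ≤ (η / 4 * (η / 8) * ‖α N‖) * m :=
            mul_le_mul hC' (le_max_right _ _) (norm_nonneg _) (by positivity)
        _ = η / 4 * (‖α N‖ * (η / 8 * m)) := by ring
        _ ≤ η / 4 * (‖α N‖ * ‖R.ρ₁ x + t l • R.ρ₂ x‖) := by
            apply mul_le_mul_of_nonneg_left _ (by positivity)
            exact mul_le_mul_of_nonneg_left hx.le hα.le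

end row

end Vale.Agent.P092.H701
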