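import Vale.Agent.P092.H701.SLn
import Vale.Agent.P092.H761.Sharp

/-!
P092 (helper701): chains `HChain` give `GChain` of helper761's `sharpAbs`.
-/

set_option linter.all false

open Set Topology

namespace Vale.Agent.P092.H701

/-- `u` is a ping-pong family for measurable sets without overlaps. -/
def PingPong (H : Type*) [Group H] [MeasurableSpace H] (p : ℕ) (u : Fin p → H) : Prop :=
  ∃ Bm Bp : Fin p → Set H, (∀ l, MeasurableSet (Bm l)) ∧ (∀ l, MeasurableSet (Bp l)) ∧
    (∀ l l', l ≠ l' → Disjoint (Bm l) (Bm l')) ∧ (∀ l l', l ≠ l' → Disjoint (Bp l) (Bp l')) ∧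
    ∀ l x, x ∉ Bm l → u l * x ∈ Bp l

theorem HChain.gchain {H : Type} [Group H] [TopologicalSpace H] [MeasurableSpace H] {r : ℕ}
    (C : HChain H r) :
    H761.GChain (𝔾 := H) IsCompact (PingPong H) r C.b C.K where
  cpt := C.compact
  comm_b := C.comm_b
  comm_K := C.comm_K
  ping := by
    intro j p
    obtain ⟨N₀, h⟩ := C.pp j p
    obtain ⟨κ, κ', Bm, Bp, h1, h2, h3, h4, h5, h6, h7⟩ := h N₀ le_rfl
    exact ⟨N₀, κ, κ', h1, h2, Bm, Bp, h3, h4, h5, h6, h7⟩

/-- `SL_m(ℝ)`: a chain of length `m - 1`. -/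
theorem exists_gchain (m : ℕ) [MeasurableSpace (Matrix.SpecialLinearGroup (Fin m) ℝ)]
    [OpensMeasurableSpace (Matrix.SpecialLinearGroup (Fin m) ℝ)] :
    ∃ (b : Fin (m - 1) → ℕ → Matrix.SpecialLinearGroup (Fin m) ℝ)
      (K : Fin (m - 1) → Set (Matrix.SpecialLinearGroup (Fin m) ℝ)),
      H761.GChain (𝔾 := Matrix.SpecialLinearGroup (Fin m) ℝ) IsCompact
        (PingPong (Matrix.SpecialLinearGroup (Fin m) ℝ)) (m - 1) b K := by
  cases m with
  | zero => exact ⟨fun i => i.elim0, fun i => i.elim0, ⟨fun i => i.elim0, fun i => i.elim0,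
      fun i => i.elim0, fun i => i.elim0⟩⟩
  | succ n => exact ⟨(slChain ℝ n).b, (slChain ℝ n).K, (slChain ℝ n).gchain⟩

/-- `SL_m(k)`: a chain of length `m - 1`. -/
theorem exists_gchain_field (k : Type) [NontriviallyNormedField k] [ProperSpace k] (m : ℕ)
    [MeasurableSpace (Matrix.SpecialLinearGroup (Fin m) k)]
    [OpensMeasurableSpace (Matrix.SpecialLinearGroup (Fin m) k)] :
    ∃ (b : Fin (m - 1) → ℕ → Matrix.SpecialLinearGroup (Fin m) k)
      (K : Fin (m - 1) → Set (Matrix.SpecialLinearGroup (Fin m) k)),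
      H761.GChain (𝔾 := Matrix.SpecialLinearGroup (Fin m) k) IsCompact
        (PingPong (Matrix.SpecialLinearGroup (Fin m) k)) (m - 1) b K := by
  cases m with
  | zero => exact ⟨fun i => i.elim0, fun i => i.elim0, ⟨fun i => i.elim0, fun i => i.elim0,
      fun i => i.elim0, fun i => i.elim0⟩⟩
  | succ n => exact ⟨(slChain k n).b, (slChain k n).K, (slChain k n).gchain⟩

end Vale.Agent.P092.H701
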